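import Vale.Agent.P143.Law
import Vale.Agent.P143.Graphs

/-!
The free uniform spanning forest is a factor of i.i.d. labels, on every connected locally finite
graph by one isomorphism-invariant measurable rule, and in particular on every Cayley graph
equivariantly for the group.
-/

namespace Vale.Agent.Results.P143.FUSFFactor

open MeasureTheory
open Vale.Agent.P143

theorem result :
    (∃ Φ : (V : Type) → SimpleGraph V → (V → unitInterval) → Set (Sym2 V),
      (∀ (V : Type) (G : SimpleGraph V) (U : V → unitInterval), Φ V G U ⊆ G.edgeSet) ∧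
      (∀ (V W : Type) (G : SimpleGraph V) (G' : SimpleGraph W) (σ : G ≃g G')
          (U : W → unitInterval), Φ W G' U = Sym2.map σ '' Φ V G (U ∘ σ)) ∧
      (∀ e : Sym2 ℕ, MeasurableSet {p : (ℕ → ℕ → Bool) × (ℕ → unitInterval) |
          e ∈ Φ ℕ (SimpleGraph.fromRel fun i j => p.1 i j = true) p.2}) ∧
      (∀ (V : Type) (G : SimpleGraph V), G.Connected → (∀ v, (G.neighborSet v).Finite) →
        (∀ e : Sym2 V, MeasurableSet {U : V → unitInterval | e ∈ Φ V G U}) ∧
        (∃ H : ℕ → G.Subgraph, IsExhaustion G H) ∧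
        HasFUSFLaw G (Φ V G))) ∧
    (∀ (Γ : Type) [Group Γ] (S : Finset Γ), Subgroup.closure (S : Set Γ) = ⊤ →
      ∃ Ψ : (Γ → unitInterval) → Set (Sym2 Γ),
        (∀ e : Sym2 Γ, MeasurableSet {U : Γ → unitInterval | e ∈ Ψ U}) ∧
        (∀ (γ : Γ) (U : Γ → unitInterval),
          Ψ (fun x => U (γ⁻¹ * x)) = Sym2.map (fun x => γ * x) '' Ψ U) ∧
        HasFUSFLaw (SimpleGraph.mulCayley (S : Set Γ)) Ψ) := by
  classical
  have hequiv : ∀ (V W : Type) (G : SimpleGraph V) (G' : SimpleGraph W) (σ : G ≃g G')
      (U : W → unitInterval), Phi G'.edgeSet U = Sym2.map σ '' Phi G.edgeSet (U ∘ σ) := by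
    intro V W G G' σ U
    have hE : G'.edgeSet = Sym2.map σ.toEquiv '' G.edgeSet := by
      ext e'
      induction e' using Sym2.ind with
      | _ a b =>
        constructor
        · intro h
          refine ⟨s(σ.symm a, σ.symm b), σ.symm.map_adj_iff.2 h, ?_⟩
          simp
        · rintro ⟨e, he, heq⟩
          rw [← heq]
          clear heq
          induction e using Sym2.ind with
          | _ c d => exact σ.map_adj_iff.2 he
    rw [hE]
    exact Phi_map σ.toEquiv G.edgeSet U
  have hmeas : ∀ (V : Type) (G : SimpleGraph V) [Countable V] (e : Sym2 V),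
      MeasurableSet {U : V → unitInterval | e ∈ Phi G.edgeSet U} := fun V G _ e =>
    measurableSet_Phi (E := fun _ => G.edgeSet) (U := fun U : V → unitInterval => U)
      (fun f => by by_cases hf : f ∈ G.edgeSet <;> simp [hf]) measurable_id e
  refine ⟨⟨fun V G => Phi G.edgeSet, fun V G U e he => he.1, hequiv, fun e => ?_,
    fun V G hconn hlf => ?_⟩, fun Γ _ S hS => ?_⟩
  · refine measurableSet_Phi
      (E := fun p : (ℕ → ℕ → Bool) × (ℕ → unitInterval) =>
        (SimpleGraph.fromRel fun i j => p.1 i j = true).edgeSet)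
      (U := fun p => p.2) (fun f => ?_) measurable_snd e
    induction f using Sym2.ind with
    | _ a b =>
      simp only [SimpleGraph.mem_edgeSet, SimpleGraph.fromRel_adj]
      by_cases hab : a = b
      · simp [hab]
      · simp only [ne_eq, hab, not_false_iff, true_and]
        exact (measurableSet_eq_fun (by fun_prop) measurable_const).union
          (measurableSet_eq_fun (by fun_prop) measurable_const)
  · have := countable_of_connected hconn hlf
    exact ⟨fun e => hmeas V G e, exists_exhaustion hconn hlf, hasFUSFLaw_Phi hlf⟩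
  · have hconn := mulCayley_connected (S : Set Γ) hS
    have hlf := mulCayley_locallyFinite S
    have := countable_of_connected hconn hlf
    refine ⟨Phi (SimpleGraph.mulCayley (S : Set Γ)).edgeSet, fun e => hmeas Γ _ e,
      fun γ U => ?_, hasFUSFLaw_Phi hlf⟩
    rw [hequiv Γ Γ _ _ (leftIso (S : Set Γ) γ) (fun x => U (γ⁻¹ * x))]
    have h1 : ((fun x => U (γ⁻¹ * x)) ∘ ⇑(leftIso (S : Set Γ) γ)) = U := by
      funext x
      simp [leftIso]
    rw [h1]
    rfl

end Vale.Agent.Results.P143.FUSFFactor
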